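import Crest.Agent.R182.U.Reach

/-! R182/U/Frac: star hulls of symmetric sets, transfer of boxes along Lie endomorphisms, and extraction of integer parts
(owner helper36). -/

set_option autoImplicit false
set_option linter.unusedVariables false
set_option linter.unusedSectionVars false
open Set Filter Topology MeasureTheory Crest.GroupTheory
open scoped Pointwise commutatorElement

noncomputable section
namespace Crest.Agent.R182

/-- the star hull -/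
def stH {h : ℕ} (𝒮 : Set (V h)) : Set (V h) := {X | ∃ a : ℝ, |a| ≤ 1 ∧ ∃ v ∈ 𝒮, X = a • v}

theorem subset_stH {h : ℕ} (𝒮 : Set (V h)) : 𝒮 ⊆ stH 𝒮 := fun v hv => ⟨1, by simp, v, hv, by simp⟩

theorem stH_mono {h : ℕ} {𝒮 𝒮' : Set (V h)} (hs : 𝒮 ⊆ 𝒮') : stH 𝒮 ⊆ stH 𝒮' :=
  fun _ ⟨a, ha, v, hv, e⟩ => ⟨a, ha, v, hs hv, e⟩

theorem star_stH {h : ℕ} {𝒮 : Set (V h)} (h0 : 0 ∈ 𝒮) : Star (stH 𝒮) := by
  refine ⟨subset_stH _ h0, ?_⟩
  rintro b hb _ ⟨a, ha, v, hv, rfl⟩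
  exact ⟨b * a, by rw [abs_mul]; exact mul_le_one₀ hb (abs_nonneg _) ha, v, hv, smul_smul _ _ _⟩

namespace Core
variable {h k : ℕ} {c : Core h k} {𝒱 𝒱' 𝒮 : Set (V h)} {i : ℕ} {t : ℝ} {X : V h}

theorem In.subset (hX : c.In 𝒱 i t X) (hs : 𝒱 ⊆ 𝒱') : c.In 𝒱' i t X :=
  let ⟨q, hq, e⟩ := hX; ⟨q, Qi_mono hs hq, e⟩

theorem In.mem_sub {U : Submodule ℝ (V h)} (hU : c.IsSub U) (hs : 𝒱 ⊆ U) (hX : c.In 𝒱 i t X) : X ∈ U := by
  obtain ⟨q, hq, rfl⟩ := hX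
  refine U.smul_mem _ (convexHull_min (t := (U : Set (V h))) ?_ U.convex hq)
  rintro _ ⟨Y, hY, l, -, hl, rfl⟩
  induction l with
  | nil => exact hs hY
  | cons Z l ih => exact hU _ (hs (hl Z (by simp))) _ (ih fun W hW => hl W (by simp [hW]))

variable (c) in
theorem exists_In_norm : ∃ B : ℝ, 1 ≤ B ∧ ∀ (𝒱 : Set (V h)) (R : ℝ), 1 ≤ R → (∀ v ∈ 𝒱, ‖v‖ ≤ R) → ∀ i t X, c.In 𝒱 i t X →
    ‖X‖ ≤ |t| * (B * R) ^ c.cl := by
  obtain ⟨B, hB, hb⟩ := c.exists_norm_br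
  refine ⟨B + 1, by linarith, fun 𝒱 R hR hv i t X ⟨q, hq, e⟩ => ?_⟩
  have h1 : 1 ≤ (B + 1) * R := one_le_mul_of_one_le_of_one_le (by linarith) hR
  rw [← e, norm_smul, Real.norm_eq_abs]
  refine mul_le_mul_of_nonneg_left (mem_closedBall_zero_iff.1 (convexHull_min ?_ (convex_closedBall _ _) hq)) (abs_nonneg t)
  rintro _ ⟨Y, hY, l, -, hl, rfl⟩
  rw [mem_closedBall_zero_iff]
  by_cases hc : c.cl ≤ l.length
  · rw [c.nb_eq_zero hc, norm_zero]; positivity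
  refine le_trans ?_ (pow_le_pow_right₀ h1 (show l.length + 1 ≤ c.cl by omega))
  clear hc
  induction l with
  | nil => simpa using (hv Y hY).trans (by nlinarith)
  | cons Z l ih =>
    rw [nb_cons, List.length_cons, pow_succ' _ (l.length + 1)]
    refine (hb _ _).trans (mul_le_mul (mul_le_mul (by linarith) (hv Z (hl Z (by simp))) (norm_nonneg _) (by linarith))
      (ih fun W hW => hl W (by simp [hW])) (norm_nonneg _) (by positivity))

theorem nb_stH (l : List (V h)) (hl : ∀ Z ∈ l, Z ∈ stH 𝒮) : ∃ (l' : List (V h)) (a : ℝ), l'.length = l.length ∧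
    (∀ Z ∈ l', Z ∈ 𝒮) ∧ |a| ≤ 1 ∧ ∀ Y, c.nb l Y = a • c.nb l' Y := by
  induction l with
  | nil => exact ⟨[], 1, rfl, by simp, by simp, by simp⟩
  | cons Z l ih =>
    obtain ⟨l', a, h1, h2, h3, h4⟩ := ih fun W hW => hl W (by simp [hW])
    obtain ⟨b, hb, v, hv, rfl⟩ := hl Z (by simp)
    refine ⟨v :: l', b * a, by simp [h1], ?_, by rw [abs_mul]; exact mul_le_one₀ hb (abs_nonneg _) h3, fun Y => ?_⟩
    · simpa [hv] using h2
    · simp [h4, smul_smul, mul_comm]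

theorem neg_mem_Nb (hn : ∀ v ∈ 𝒮, -v ∈ 𝒮) (hX : X ∈ c.Nb 𝒮 i) : -X ∈ c.Nb 𝒮 i := by
  obtain ⟨Y, hY, l, h1, h2, rfl⟩ := hX
  exact ⟨-Y, hn Y hY, l, h1, h2, by rw [← neg_one_smul ℝ Y, nb_smul, neg_one_smul]⟩

theorem Qi_stH (hn : ∀ v ∈ 𝒮, -v ∈ 𝒮) : c.Qi (stH 𝒮) i = c.Qi 𝒮 i := by
  refine subset_antisymm (convexHull_min ?_ convex_Qi) (Qi_mono (subset_stH _))
  rintro _ ⟨_, ⟨b, hb, y, hy, rfl⟩, l, h1, h2, rfl⟩
  obtain ⟨l', a, h3, h4, h5, h6⟩ := nb_stH (c := c) l h2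
  have hx : c.nb l' y ∈ c.Nb 𝒮 i := ⟨y, hy, l', h3 ▸ h1, h4, rfl⟩
  have hab : |a * b| ≤ 1 := by rw [abs_mul]; exact mul_le_one₀ h5 (abs_nonneg _) hb
  rw [h6, nb_smul, smul_smul]
  have := convex_Qi (c := c) (𝒱 := 𝒮) (i := i) (subset_convexHull _ _ hx) (subset_convexHull _ _ (neg_mem_Nb hn hx))
    (a := (1 + a * b) / 2) (b := (1 - a * b) / 2) (by linarith [abs_le.1 hab]) (by linarith [abs_le.1 hab]) (by ring)
  rwa [smul_neg, ← sub_eq_add_neg, ← sub_smul, show (1 + a * b) / 2 - (1 - a * b) / 2 = a * b by ring] at this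

/-- transfer along a Lie endomorphism -/
theorem In.trans (hs : Star 𝒱) {f : V h →ₗ[ℝ] V h} (hf : ∀ X Y, f (c.br X Y) = c.br (f X) (f Y)) {D : ℝ} (hD : 1 ≤ D)
    (hv : ∀ v ∈ 𝒱', c.In 𝒱 1 D (f v)) (hX : c.In 𝒱' i t X) : c.In 𝒱 i (t * (2 ^ c.cl * D) ^ c.cl) (f X) := by
  have h2 : (1 : ℝ) ≤ 2 ^ c.cl := one_le_pow₀ one_le_two
  have h1 : 1 ≤ 2 ^ c.cl * D := one_le_mul_of_one_le_of_one_le h2 hD
  refine In.map ?_ hX
  rintro _ ⟨Y, hY, l, hl, hl', rfl⟩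
  by_cases hc : c.cl ≤ l.length
  · rw [c.nb_eq_zero hc, map_zero]; exact In.zero hs
  have key : ∀ l : List (V h), (∀ Z ∈ l, Z ∈ 𝒱') → c.In 𝒱 (l.length + 1) ((2 ^ c.cl * D) ^ (l.length + 1)) (f (c.nb l Y)) := by
    intro l hl
    induction l with
    | nil => simpa using (hv Y hY).mono hs (by linarith) (le_mul_of_one_le_left (by linarith) h2)
    | cons Z l ih =>
      rw [nb_cons, hf, List.length_cons, pow_succ' _ (l.length + 1)]
      exact (hv Z (hl Z (by simp))).br_one hs (ih fun W hW => hl W (by simp [hW])) (by positivity)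
  exact ((key l hl').anti hl).mono hs (by positivity) (pow_le_pow_right₀ h1 (by omega))

theorem In.stH_of (hs : Star 𝒱) {f : V h →ₗ[ℝ] V h} {D : ℝ} (hD : 0 ≤ D) (hv : ∀ v ∈ 𝒮, c.In 𝒱 i D (f v)) :
    ∀ v ∈ stH 𝒮, c.In 𝒱 i D (f v) := by
  rintro _ ⟨a, ha, v, hv', rfl⟩
  rw [map_smul]
  exact ((hv v hv').smul_abs hs hD a).mono hs (by positivity) (mul_le_of_le_one_left hD ha)

theorem In.exists_frac (h0 : 0 ∈ 𝒮) (hn : ∀ v ∈ 𝒮, -v ∈ 𝒮) (hX : c.In (stH 𝒮) i t X) :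
    ∃ (L : List (V h)) (Z : V h), L.length ≤ (h + 1) * ⌈|t|⌉₊ ∧ (∀ Y ∈ L, Y ∈ c.Nb 𝒮 i) ∧
      c.In (stH 𝒮) i (h + 1) Z ∧ X = L.sum + Z := by
  have hs := star_stH h0
  obtain ⟨q, hq, rfl⟩ := hX.mono' hs le_rfl
  rw [Qi_stH hn] at hq
  obtain ⟨ι, _, z, w, hz, hind, hw, hw1, rfl⟩ := eq_pos_convex_span_of_mem_convexHull hq
  have hcard : Fintype.card ι ≤ h + 1 := hind.card_le_finrank_succ.trans
    (Nat.succ_le_succ ((Submodule.finrank_le _).trans (by simp)))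
  have h1 : ∀ r, w r ≤ 1 := fun r => hw1 ▸ Finset.single_le_sum (fun r _ => (hw r).le) (Finset.mem_univ r)
  have h2 : ∀ r, 0 ≤ |t| * w r := fun r => mul_nonneg (abs_nonneg t) (hw r).le
  refine ⟨(Finset.univ : Finset ι).toList.flatMap fun r => List.replicate ⌊|t| * w r⌋₊ (z r),
    ∑ r, (|t| * w r - ⌊|t| * w r⌋₊) • z r, ?_, ?_, ?_, ?_⟩
  · rw [List.length_flatMap]
    simp only [List.length_replicate, Finset.sum_map_toList]
    refine (Finset.sum_le_card_nsmul _ _ ⌈|t|⌉₊ fun r _ => ?_).trans (by simpa using Nat.mul_le_mul_right _ hcard)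
    exact (Nat.floor_mono (mul_le_of_le_one_right (abs_nonneg t) (h1 r))).trans (Nat.floor_le_ceil _)
  · intro Y hY
    obtain ⟨r, -, hr⟩ := List.mem_flatMap.1 hY
    rw [List.eq_of_mem_replicate hr]
    exact hz ⟨r, rfl⟩
  · refine (In.sum hs Finset.univ (r := fun _ => 1) (fun _ _ => zero_le_one) fun r _ => ?_).mono hs (by simp) ?_
    · refine In.of_Nb (Nb_smul hs ?_ (Nb_mono (subset_stH _) (hz ⟨r, rfl⟩)))
      rw [abs_of_nonneg (sub_nonneg.2 (Nat.floor_le (h2 r)))]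
      linarith [Nat.lt_floor_add_one (|t| * w r)]
    · simp only [Finset.sum_const, Finset.card_univ, nsmul_eq_mul, mul_one]
      exact_mod_cast hcard
  · rw [List.flatMap_def, List.sum_flatten, List.map_map, Finset.sum_map_toList]
    simp only [Function.comp, List.sum_replicate, Finset.smul_sum, smul_smul, ← Finset.sum_add_distrib]
    refine Finset.sum_congr rfl fun r _ => ?_
    rw [← Nat.cast_smul_eq_nsmul ℝ, ← add_smul, add_sub_cancel]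

variable (c) in
/-- **FRAC**: an element of a large multiple of the box is a word of bounded length in the symmetric set `𝒮` times an element of a fixed
multiple of the box -/
theorem exists_frac (t : ℝ) : ∃ M : ℕ, ∀ 𝒮 : Set (V h), 0 ∈ 𝒮 → (∀ v ∈ 𝒮, -v ∈ 𝒮) → ∀ X, c.In (stH 𝒮) 1 t X →
    ∃ w Z, c.Wd 𝒮 M w ∧ c.In (stH 𝒮) 1 (c.cl * (h + 1)) Z ∧ c.exp X = w * c.exp Z := by
  obtain ⟨D₁, n₁, hD₁, h₁⟩ := c.exists_In_mul
  have key : ∀ n i, i + n = c.cl + 1 → ∀ a t : ℝ, 0 ≤ a → ∃ M : ℕ, ∀ 𝒮 : Set (V h), 0 ∈ 𝒮 → (∀ v ∈ 𝒮, -v ∈ 𝒮) → ∀ A X,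
      c.In (stH 𝒮) 1 a A → c.In (stH 𝒮) i t X →
      ∃ w Z, c.Wd 𝒮 M w ∧ c.In (stH 𝒮) 1 (a + n * (h + 1)) Z ∧ c.exp (A + X) = w * c.exp Z := by
    intro n
    induction n with
    | zero => exact fun i hi a t ha => ⟨0, fun 𝒮 h0 hn A X hA hX => ⟨1, A, Wd.one, by simpa using hA,
        by rw [hX.eq_zero (by omega), add_zero, one_mul]⟩⟩
    | succ n ih =>
      intro i hi a t ha
      set m := (h + 1) * ⌈|t|⌉₊ with hm
      obtain ⟨D, M, hD, hw⟩ := c.exists_sum_word m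
      have hm0 : (0 : ℝ) ≤ m := Nat.cast_nonneg m
      have hh : (0 : ℝ) ≤ h + 1 := by positivity
      set T : ℝ := 1 + m + (a + (m + (h + 1))) with hT
      set r₂ : ℝ := D₁ * T ^ n₁ * m with hr₂
      have hr₂0 : 0 ≤ r₂ := by positivity
      set T' : ℝ := 1 + D + (a + (h + 1) + r₂) with hT'
      obtain ⟨M', h'⟩ := ih (i + 1) (by omega) (a + (h + 1)) (D₁ * T' ^ n₁ * D + r₂) (by positivity)
      refine ⟨M + M', fun 𝒮 h0 hn A X hA hX => ?_⟩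
      have hs := star_stH h0
      obtain ⟨L, Z, hL, hL', hZ, rfl⟩ := hX.exists_frac h0 hn
      obtain ⟨hS, R, w, hR, hw', e⟩ := hw (stH 𝒮) 𝒮 hs (subset_stH _) hn i L hL hL'
      set S := L.sum with hSdef
      have b1 : c.In (stH 𝒮) 1 T (A + (S + Z)) :=
        (hA.add (hS.one.add hZ.one hm0 hh) ha (by positivity)).mono hs (by positivity) (by linarith)
      have b2 := (h₁ _ hs i T m _ _ (by linarith) hm0 (by linarith) b1 (hS.neg hs)).2.2.2.1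
      set R₂ := c.bch (-S) (A + (S + Z)) - -S - (A + (S + Z)) with hR₂
      have e2 : c.bch (-S) (A + (S + Z)) = A + Z + R₂ := by rw [hR₂]; abel
      have b3 := hA.add hZ.one ha hh
      have b4 : c.In (stH 𝒮) 1 T' (A + Z + R₂) :=
        (b3.add b2.one (by positivity) hr₂0).mono hs (by positivity) (by linarith)
      have b5 := ((h₁ _ hs (i + 1) T' D _ _ (by linarith) hD (by linarith) b4 hR).2.1).add b2 (by positivity) hr₂0
      obtain ⟨w', Z', hw'', hZ', e'⟩ := h' 𝒮 h0 hn _ _ b3 b5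
      refine ⟨w * w', Z', hw'.mul hw'', by rwa [Nat.cast_succ, add_mul, one_mul, add_comm (_ * _), ← add_assoc], ?_⟩
      rw [exp_eq_mul S (A + (S + Z)), e2, e, mul_assoc, c.exp_bch, mul_assoc, ← e']
      congr 2
      abel
  obtain ⟨M, h⟩ := key c.cl 1 (by omega) 0 t le_rfl
  refine ⟨M, fun 𝒮 h0 hn X hX => ?_⟩
  simpa using h 𝒮 h0 hn 0 X (In.zero (star_stH h0)) hX

end Core

end Crest.Agent.R182
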