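import Crest.Agent.R182.U.In

/-! R182/U/Reach: boxes are reached by words of bounded length, and lie in the convex hull of logarithms of such words
(owner helper36). -/

set_option autoImplicit false
set_option linter.unusedVariables false
set_option linter.unusedSectionVars false
open Set Filter Topology MeasureTheory Crest.GroupTheory
open scoped Pointwise commutatorElement

noncomputable section
namespace Crest.Agent.R182

namespace Core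
variable {h k : ℕ} (c : Core h k)

/-- `g` is a product of at most `M` elements `exp v`, `v ∈ 𝒱` -/
def Wd (𝒱 : Set (V h)) (M : ℕ) (g : c.G) : Prop :=
  ∃ l : List (V h), l.length ≤ M ∧ (∀ v ∈ l, v ∈ 𝒱) ∧ (l.map c.exp).prod = g

/-- logarithms of words of length at most `M` -/
def LW (𝒱 : Set (V h)) (M : ℕ) : Set (V h) := {X | c.Wd 𝒱 M (c.exp X)}

variable {c} {𝒱 : Set (V h)} {M M' : ℕ} {g g' : c.G}

theorem Wd.one : c.Wd 𝒱 M 1 := ⟨[], by simp, by simp, rfl⟩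

theorem Wd.gen {v : V h} (hv : v ∈ 𝒱) : c.Wd 𝒱 1 (c.exp v) := ⟨[v], le_rfl, by simpa, by simp⟩

theorem Wd.mono (hg : c.Wd 𝒱 M g) (hM : M ≤ M') : c.Wd 𝒱 M' g :=
  let ⟨l, h1, h2, h3⟩ := hg; ⟨l, h1.trans hM, h2, h3⟩

theorem Wd.mul (hg : c.Wd 𝒱 M g) (hg' : c.Wd 𝒱 M' g') : c.Wd 𝒱 (M + M') (g * g') := by
  obtain ⟨l, h1, h2, rfl⟩ := hg
  obtain ⟨l', h1', h2', rfl⟩ := hg'
  exact ⟨l ++ l', by simpa using add_le_add h1 h1', fun v hv => (List.mem_append.1 hv).elim (h2 v) (h2' v), by simp⟩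

theorem Wd.inv' (hs : ∀ v ∈ 𝒱, -v ∈ 𝒱) (hg : c.Wd 𝒱 M g) : c.Wd 𝒱 M g⁻¹ := by
  obtain ⟨l, h1, h2, rfl⟩ := hg
  refine ⟨(l.map Neg.neg).reverse, by simpa, fun v hv => ?_, ?_⟩
  · simp only [List.mem_reverse, List.mem_map] at hv
    obtain ⟨w, hw, rfl⟩ := hv
    exact hs _ (h2 w hw)
  · rw [List.prod_inv_reverse, List.map_reverse, List.map_map, List.map_map]
    congr 2
    exact List.map_congr_left fun v _ => c.exp_neg v

theorem Wd.inv (hs : Star 𝒱) (hg : c.Wd 𝒱 M g) : c.Wd 𝒱 M g⁻¹ := hg.inv' fun _ hv => hs.neg hv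

theorem exp_eq_mul (X Y : V h) : c.exp Y = c.exp X * c.exp (c.bch (-X) Y) := by
  rw [← c.exp_bch, c.exp_neg, mul_inv_cancel_left]

variable (c) in
/-- iterated group commutators -/
theorem exists_comm_word (n : ℕ) : ∃ (D : ℝ) (M : ℕ), 0 ≤ D ∧ ∀ 𝒱 𝒮 : Set (V h), Star 𝒱 → 𝒮 ⊆ 𝒱 → (∀ v ∈ 𝒮, -v ∈ 𝒮) →
    ∀ Y ∈ 𝒮, ∀ l : List (V h),
    l.length ≤ n → (∀ Z ∈ l, Z ∈ 𝒮) → ∃ R, c.In 𝒱 (l.length + 2) D R ∧ c.Wd 𝒮 M (c.exp (c.nb l Y + R)) := by
  obtain ⟨D₁, n₁, hD₁, h₁⟩ := c.exists_In_bch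
  obtain ⟨D₂, n₂, hD₂, h₂⟩ := c.exists_In_Ad
  induction n with
  | zero =>
    refine ⟨0, 1, le_rfl, fun 𝒱 𝒮 hs hss hn Y hY l hl _ => ⟨0, In.zero hs, ?_⟩⟩
    rw [List.length_eq_zero_iff.1 (Nat.le_zero.1 hl)]
    simpa using Wd.gen hY
  | succ n ih =>
    obtain ⟨D, M, hD, ih⟩ := ih
    set B : ℝ := 2 ^ c.cl with hB
    set a : ℝ := D₂ * 1 ^ n₂ * (B * 1 * (B * 1 * (1 + D))) with ha
    set u : ℝ := a + B * 1 * (1 + D) with hu
    set T : ℝ := 1 + D + u with hT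
    have hu0 : 0 ≤ u := by positivity
    refine ⟨D + (B * 1 * D + a + D₁ * T ^ n₁ * (u * (B * (1 + D)))), 1 + M + 1 + M, by positivity,
      fun 𝒱 𝒮 hs hss hn Y hY l hl h => ?_⟩
    rcases l with _ | ⟨Z, l⟩
    · exact ⟨0, In.zero hs, by simpa using (Wd.gen hY).mono (by omega)⟩
    have hZ : Z ∈ 𝒮 := h Z (by simp)
    have hl' : ∀ W ∈ l, W ∈ 𝒮 := fun W hW => h W (by simp [hW])
    obtain ⟨R, hR, hw⟩ := ih 𝒱 𝒮 hs hss hn Y hY l (by simpa using hl) hl'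
    set W := c.nb l Y + R with hW
    have hWi : c.In 𝒱 (l.length + 1) (1 + D) W :=
      (In.of_Nb ⟨Y, hss hY, l, le_rfl, fun W hW => hss (hl' W hW), rfl⟩).add (hR.anti (by omega)) zero_le_one hD
    have hZi := In.of_gen (c := c) (hss hZ)
    have b1 := hZi.br_one hs hWi (by positivity)
    have b2 := hZi.br_one hs b1 (by positivity)
    have a1 := h₂ 𝒱 hs _ 1 _ Z W le_rfl (by positivity) hZi b2
    have a2 := (a1.anti (Nat.le_succ _)).add b1 (by positivity) (by positivity)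
    rw [sub_add_cancel] at a2
    have a3 : c.In 𝒱 1 T (c.Ad (c.exp Z) W) := by
      have := hWi.one.add a2.one (by positivity) (by positivity)
      rwa [add_sub_cancel] at this
    have a4 : c.In 𝒱 (l.length + 3) (u * (B * (1 + D))) (c.br (c.Ad (c.exp Z) W) (-W)) := by
      have := a2.br hs (hWi.neg hs) (by positivity)
      rw [map_sub, LinearMap.sub_apply, map_neg (c.br W), c.br_self, neg_zero, sub_zero] at this
      exact this.anti (by omega)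
    have a5 := h₁ 𝒱 hs _ T _ _ _ (by linarith) (by positivity) a3
      ((hWi.one.neg hs).mono hs (by positivity) (by linarith)) a4
    have a6 := hZi.br_one hs hR hD
    refine ⟨c.bch (c.Ad (c.exp Z) W) (-W) - c.nb (Z :: l) Y, ?_, ?_⟩
    · have := (a6.add a1 (by positivity) (by positivity)).add a5 (by positivity) (by positivity)
      refine In.mono hs ?_ (by positivity) (le_add_of_nonneg_left hD)
      have e : c.bch (c.Ad (c.exp Z) W) (-W) - c.nb (Z :: l) Y = c.br Z R + (c.Ad (c.exp Z) W - W - c.br Z W) +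
          (c.bch (c.Ad (c.exp Z) W) (-W) - c.Ad (c.exp Z) W - -W) := by
        rw [nb_cons, hW, map_add (c.br Z)]
        abel
      rw [e]
      exact this
    · rw [add_sub_cancel, ← c.exp_bch, ← c.conj, c.exp_neg]
      exact (((Wd.gen hZ).mul hw).mul ((Wd.gen hZ).inv' hn)).mul (hw.inv' hn)

variable (c) in
theorem exists_Nb_word : ∃ (D : ℝ) (M : ℕ), 0 ≤ D ∧ ∀ 𝒱 𝒮 : Set (V h), Star 𝒱 → 𝒮 ⊆ 𝒱 → (∀ v ∈ 𝒮, -v ∈ 𝒮) →
    ∀ i, ∀ X ∈ c.Nb 𝒮 i, ∃ R, c.In 𝒱 (i + 1) D R ∧ c.Wd 𝒮 M (c.exp (X + R)) := by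
  obtain ⟨D, M, hD, h⟩ := c.exists_comm_word c.cl
  refine ⟨D, M, hD, ?_⟩
  rintro 𝒱 𝒮 hs hss hn i _ ⟨Y, hY, l, hl, hl', rfl⟩
  by_cases hc : c.cl ≤ l.length
  · exact ⟨0, In.zero hs, by rw [c.nb_eq_zero hc, add_zero, c.exp_zero]; exact Wd.one⟩
  · obtain ⟨R, hR, hw⟩ := h 𝒱 𝒮 hs hss hn Y hY l (by omega) hl'
    exact ⟨R, hR.anti (by omega), hw⟩

variable (c) in
theorem exists_sum_word (m : ℕ) : ∃ (D : ℝ) (M : ℕ), 0 ≤ D ∧ ∀ 𝒱 𝒮 : Set (V h), Star 𝒱 → 𝒮 ⊆ 𝒱 → (∀ v ∈ 𝒮, -v ∈ 𝒮) →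
    ∀ i, ∀ L : List (V h), L.length ≤ m → (∀ X ∈ L, X ∈ c.Nb 𝒮 i) → c.In 𝒱 i m L.sum ∧
      ∃ R w, c.In 𝒱 (i + 1) D R ∧ c.Wd 𝒮 M w ∧ c.exp L.sum = w * c.exp R := by
  obtain ⟨D₀, M₀, hD₀, h₀⟩ := c.exists_Nb_word
  obtain ⟨D₁, n₁, hD₁, h₁⟩ := c.exists_In_mul
  induction m with
  | zero =>
    refine ⟨0, 0, le_rfl, fun 𝒱 𝒮 hs hss hn i L hL _ => ?_⟩
    rw [List.length_eq_zero_iff.1 (Nat.le_zero.1 hL)]
    exact ⟨In.zero hs, 0, 1, In.zero hs, Wd.one, by simp⟩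
  | succ m ih =>
    obtain ⟨D, M, hD, ih⟩ := ih
    set T₁ : ℝ := 1 + D₀ + (1 + m) with hT₁
    set r₂ : ℝ := D₁ * T₁ ^ n₁ * (1 + m) + D₀ with hr₂
    set T₂ : ℝ := 1 + m + r₂ with hT₂
    set r₃ : ℝ := D₁ * T₂ ^ n₁ * (m + r₂) + r₂ with hr₃
    set T₃ : ℝ := 1 + D + r₃ with hT₃
    have hr₂0 : 0 ≤ r₂ := by positivity
    have hr₃0 : 0 ≤ r₃ := by positivity
    have hm : (0 : ℝ) ≤ m := Nat.cast_nonneg m
    refine ⟨D₁ * T₃ ^ n₁ * r₃ + D, M₀ + M, by positivity, fun 𝒱 𝒮 hs hss hn i L hL h => ?_⟩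
    rcases L with _ | ⟨X, L⟩
    · exact ⟨In.zero hs, 0, 1, In.zero hs, Wd.one, by simp⟩
    obtain ⟨hS, R', w', hR', hw', e'⟩ := ih 𝒱 𝒮 hs hss hn i L (by simpa using hL) fun Y hY => h Y (by simp [hY])
    obtain ⟨R₀, hR₀, hw₀⟩ := h₀ 𝒱 𝒮 hs hss hn i X (h X (by simp))
    have hX := Nb_mono hss (h X (by simp))
    have hXS := (In.of_Nb hX).add hS zero_le_one hm
    rw [List.sum_cons]
    refine ⟨by rwa [Nat.cast_succ, add_comm (m : ℝ)], ?_⟩
    set S := L.sum with hSdef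
    have hA : c.In 𝒱 1 T₁ (-(X + R₀)) :=
      (((In.of_Nb hX).one.add hR₀.one zero_le_one hD₀).neg hs).mono hs (by positivity) (by linarith)
    have a1 := (h₁ 𝒱 hs i T₁ _ _ _ (by linarith) (by positivity) (by linarith) hA hXS).2.2.1
    have a2 := a1.sub hs hR₀ (by positivity) hD₀
    set R₂ := c.bch (-(X + R₀)) (X + S) - -(X + R₀) - (X + S) - R₀ with hR₂
    have e2 : c.bch (-(X + R₀)) (X + S) = S + R₂ := by rw [hR₂]; abel
    have a3 := hS.add (a2.anti (Nat.le_succ i)) hm hr₂0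
    have a4 := (h₁ 𝒱 hs i T₂ _ _ _ (by linarith) (by positivity) (by linarith)
      ((hS.one.neg hs).mono hs hm (by linarith)) a3).2.2.1
    have a5 := a4.add a2 (by positivity) hr₂0
    rw [show c.bch (-S) (S + R₂) - -S - (S + R₂) + R₂ = c.bch (-S) (S + R₂) by abel] at a5
    have a6 := (h₁ 𝒱 hs (i + 1) T₃ _ _ _ (by linarith) hr₃0 (by linarith)
      (hR'.one.mono hs hD (by linarith)) a5).1
    have a7 := a6.add hR' (by positivity) hD
    rw [sub_add_cancel] at a7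
    refine ⟨_, _, a7, hw₀.mul hw', ?_⟩
    rw [exp_eq_mul (X + R₀) (X + S), e2, exp_eq_mul S (S + R₂), e', ← c.exp_bch R']
    simp only [mul_assoc]

theorem In.exists_list (hs : Star 𝒱) {i : ℕ} {t : ℝ} {X : V h} (hX : c.In 𝒱 i t X) :
    ∃ L : List (V h), L.length ≤ (h + 1) * ⌈|t|⌉₊ ∧ (∀ Y ∈ L, Y ∈ c.Nb 𝒱 i) ∧ L.sum = X := by
  obtain ⟨q, hq, rfl⟩ := hX
  obtain ⟨ι, _, z, w, hz, hind, hw, hw1, rfl⟩ := eq_pos_convex_span_of_mem_convexHull hq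
  have hcard : Fintype.card ι ≤ h + 1 := hind.card_le_finrank_succ.trans
    (Nat.succ_le_succ ((Submodule.finrank_le _).trans (by simp)))
  set N := ⌈|t|⌉₊ with hN
  rcases Nat.eq_zero_or_pos N with h0 | h0
  · have : t = 0 := by simpa [hN] using h0
    exact ⟨[], by simp, by simp, by simp [this]⟩
  have hNR : (0 : ℝ) < N := Nat.cast_pos.2 h0
  refine ⟨(Finset.univ : Finset ι).toList.flatMap fun r => List.replicate N ((t * w r / N) • z r), ?_, ?_, ?_⟩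
  · rw [List.length_flatMap]
    simp only [List.length_replicate, List.map_const', List.sum_replicate, Finset.length_toList, Finset.card_univ,
      smul_eq_mul]
    exact Nat.mul_le_mul_right _ hcard
  · intro Y hY
    obtain ⟨r, -, hr⟩ := List.mem_flatMap.1 hY
    rw [List.eq_of_mem_replicate hr]
    refine Nb_smul hs ?_ (hz ⟨r, rfl⟩)
    have h1 : w r ≤ 1 := hw1 ▸ Finset.single_le_sum (fun r _ => (hw r).le) (Finset.mem_univ r)
    rw [abs_div, abs_mul, abs_of_pos (hw r), abs_of_pos hNR, div_le_one hNR]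
    exact (mul_le_of_le_one_right (abs_nonneg t) h1).trans (Nat.le_ceil _)
  · rw [List.flatMap_def, List.sum_flatten, List.map_map, Finset.sum_map_toList]
    simp only [Function.comp, List.sum_replicate, Finset.smul_sum, smul_smul]
    refine Finset.sum_congr rfl fun r _ => ?_
    rw [← Nat.cast_smul_eq_nsmul ℝ, smul_smul, mul_div_cancel₀ _ hNR.ne']

variable (c) in
/-- **REACH** -/
theorem exists_reach (t : ℝ) : ∃ M : ℕ, ∀ 𝒱 : Set (V h), Star 𝒱 → ∀ X, c.In 𝒱 1 t X → c.Wd 𝒱 M (c.exp X) := by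
  have key : ∀ n i, i + n = c.cl + 1 → ∀ t : ℝ, ∃ M : ℕ, ∀ 𝒱 : Set (V h), Star 𝒱 → ∀ X, c.In 𝒱 i t X →
      c.Wd 𝒱 M (c.exp X) := by
    intro n
    induction n with
    | zero => exact fun i hi t => ⟨0, fun 𝒱 hs X hX => by rw [hX.eq_zero (by omega), c.exp_zero]; exact Wd.one⟩
    | succ n ih =>
      intro i hi t
      obtain ⟨D, M, hD, h⟩ := c.exists_sum_word ((h + 1) * ⌈|t|⌉₊)
      obtain ⟨M', h'⟩ := ih (i + 1) (by omega) D
      refine ⟨M + M', fun 𝒱 hs X hX => ?_⟩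
      obtain ⟨L, hL, hL', rfl⟩ := hX.exists_list hs
      obtain ⟨-, R, w, hR, hw, e⟩ := h 𝒱 𝒱 hs subset_rfl (fun _ hv => hs.neg hv) i L hL hL'
      rw [e]
      exact hw.mul (h' 𝒱 hs R hR)
  exact key c.cl 1 (by omega) t

theorem neg_mem_LW (hs : Star 𝒱) {X : V h} (hX : X ∈ c.LW 𝒱 M) : -X ∈ c.LW 𝒱 M := by
  change c.Wd 𝒱 M (c.exp (-X))
  rw [c.exp_neg]
  exact Wd.inv hs hX

theorem zero_mem_LW : (0 : V h) ∈ c.LW 𝒱 M := by
  change c.Wd 𝒱 M (c.exp 0)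
  rw [c.exp_zero]
  exact Wd.one

variable (c) in
/-- **MONO**: nested brackets lie in a multiple of the convex hull of logarithms of words of bounded length -/
theorem exists_mono : ∃ (D : ℝ) (M : ℕ), 1 ≤ D ∧ ∀ 𝒱 : Set (V h), Star 𝒱 →
    c.Qi 𝒱 1 ⊆ D • convexHull ℝ (c.LW 𝒱 M) := by
  obtain ⟨D₀, M, hD₀, h₀⟩ := c.exists_Nb_word
  have key : ∀ n i, i + n = c.cl + 1 → ∃ D : ℝ, 1 ≤ D ∧ ∀ 𝒱 : Set (V h), Star 𝒱 →
      c.Qi 𝒱 i ⊆ D • convexHull ℝ (c.LW 𝒱 M) := by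
    intro n
    induction n with
    | zero =>
      refine fun i hi => ⟨1, le_rfl, fun 𝒱 hs X hX => ?_⟩
      rw [(In.of_mem hX).eq_zero (by omega), one_smul]
      exact subset_convexHull _ _ zero_mem_LW
    | succ n ih =>
      intro i hi
      obtain ⟨D, hD, h⟩ := ih (i + 1) (by omega)
      refine ⟨1 + D₀ * D, le_add_of_nonneg_right (by positivity), fun 𝒱 hs =>
        convexHull_min (fun X hX => ?_) ((convex_convexHull _ _).smul _)⟩
      obtain ⟨R, hR, hw⟩ := h₀ 𝒱 𝒱 hs subset_rfl (fun _ hv => hs.neg hv) i X hX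
      obtain ⟨q, hq, hqR⟩ := hR.neg hs
      obtain ⟨p, hp, rfl⟩ := h 𝒱 hs hq
      rw [(convex_convexHull _ _).add_smul zero_le_one (by positivity), one_smul]
      refine ⟨X + R, subset_convexHull _ _ hw, -R, ⟨p, hp, ?_⟩, by simp⟩
      rw [← hqR]
      simp only [smul_smul]
  obtain ⟨D, hD, h⟩ := key c.cl 1 (by omega)
  exact ⟨D, M, hD, h⟩

variable (c) in
/-- products of boundedly many elements of a box stay in a multiple of the box -/
theorem exists_prod_In (M : ℕ) (t : ℝ) : ∃ D : ℝ, 1 ≤ D ∧ ∀ 𝒱 : Set (V h), Star 𝒱 → ∀ l : List (V h), l.length ≤ M →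
    (∀ v ∈ l, c.In 𝒱 1 t v) → ∃ X, c.In 𝒱 1 D X ∧ (l.map c.exp).prod = c.exp X := by
  obtain ⟨D₁, n₁, hD₁, h₁⟩ := c.exists_In_mul
  induction M with
  | zero =>
    refine ⟨1, le_rfl, fun 𝒱 hs l hl _ => ⟨0, In.zero hs, ?_⟩⟩
    rw [List.length_eq_zero_iff.1 (Nat.le_zero.1 hl), c.exp_zero]; rfl
  | succ M ih =>
    obtain ⟨D, hD, ih⟩ := ih
    refine ⟨D₁ * (D + |t|) ^ n₁ * D + (D + |t|), le_add_of_nonneg_of_le (by positivity)
      (le_add_of_le_of_nonneg hD (abs_nonneg t)), fun 𝒱 hs l hl h => ?_⟩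
    rcases l with _ | ⟨v, l⟩
    · exact ⟨0, In.zero hs, c.exp_zero.symm⟩
    obtain ⟨X, hX, e⟩ := ih 𝒱 hs l (by simpa using hl) fun w hw => h w (by simp [hw])
    have hv : c.In 𝒱 1 (D + |t|) v := (h v (by simp)).mono' hs (by linarith)
    have := (h₁ 𝒱 hs 1 (D + |t|) D v X (by linarith [abs_nonneg t]) (by linarith) (by linarith [abs_nonneg t])
      hv hX).1.add hv (by positivity) (by positivity)
    rw [sub_add_cancel] at this
    exact ⟨_, this, by rw [List.map_cons, List.prod_cons, e, c.exp_bch]⟩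

end Core

end Crest.Agent.R182
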