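import Crest.Agent.R182.A.CoreB

/-! R182/U/In: filtered convex hulls of nested brackets (owner helper36). -/

set_option autoImplicit false
set_option linter.unusedVariables false
set_option linter.unusedSectionVars false
open Set Filter Topology MeasureTheory Crest.GroupTheory
open scoped Pointwise commutatorElement

noncomputable section
namespace Crest.Agent.R182

/-- star shaped symmetric sets -/
structure Star {h : ℕ} (𝒱 : Set (V h)) : Prop where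
  zero : 0 ∈ 𝒱
  smul : ∀ a : ℝ, |a| ≤ 1 → ∀ v ∈ 𝒱, a • v ∈ 𝒱

theorem Star.neg {h : ℕ} {𝒱 : Set (V h)} (hs : Star 𝒱) {v : V h} (hv : v ∈ 𝒱) : -v ∈ 𝒱 := by
  simpa using hs.smul (-1) (by simp) v hv

namespace Core
variable {h k : ℕ} (c : Core h k)

/-- the right-nested bracket `[l₁, [l₂, … Y]]` -/
def nb (l : List (V h)) (Y : V h) : V h := l.foldr (fun Z W => c.br Z W) Y

/-- nested brackets of at least `i` elements of `𝒱` -/
def Nb (𝒱 : Set (V h)) (i : ℕ) : Set (V h) :=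
  {X | ∃ Y ∈ 𝒱, ∃ l : List (V h), i ≤ l.length + 1 ∧ (∀ Z ∈ l, Z ∈ 𝒱) ∧ X = c.nb l Y}

/-- convex hull of the nested brackets of at least `i` elements -/
def Qi (𝒱 : Set (V h)) (i : ℕ) : Set (V h) := convexHull ℝ (c.Nb 𝒱 i)

/-- `X ∈ t • Qi 𝒱 i` -/
def In (𝒱 : Set (V h)) (i : ℕ) (t : ℝ) (X : V h) : Prop := X ∈ t • c.Qi 𝒱 i

@[simp] theorem nb_nil (Y : V h) : c.nb [] Y = Y := rfl
@[simp] theorem nb_cons (Z : V h) (l : List (V h)) (Y : V h) : c.nb (Z :: l) Y = c.br Z (c.nb l Y) := rfl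

theorem nb_smul (l : List (V h)) (a : ℝ) (Y : V h) : c.nb l (a • Y) = a • c.nb l Y := by
  induction l with
  | nil => rfl
  | cons Z l ih => simp [ih]

theorem nb_mem_F (l : List (V h)) (Y : V h) : c.nb l Y ∈ c.F (l.length + 1) := by
  induction l with
  | nil => trivial
  | cons Z l ih => exact c.br_mem_F_succ Z ih

theorem nb_eq_zero {l : List (V h)} (hl : c.cl ≤ l.length) (Y : V h) : c.nb l Y = 0 := by
  have := c.F_anti (show c.cl + 1 ≤ l.length + 1 by omega) (c.nb_mem_F l Y)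
  rwa [c.F_cl] at this

variable {c} {𝒱 : Set (V h)} {i j : ℕ} {t s : ℝ} {X Y : V h}

theorem Nb_anti (hij : i ≤ j) : c.Nb 𝒱 j ⊆ c.Nb 𝒱 i := by
  rintro _ ⟨Y, hY, l, hl, h, rfl⟩
  exact ⟨Y, hY, l, hij.trans hl, h, rfl⟩

theorem Nb_mono {𝒱' : Set (V h)} (h : 𝒱 ⊆ 𝒱') : c.Nb 𝒱 i ⊆ c.Nb 𝒱' i := by
  rintro _ ⟨Y, hY, l, hl, h', rfl⟩
  exact ⟨Y, h hY, l, hl, fun Z hZ => h (h' Z hZ), rfl⟩

theorem Qi_mono {𝒱' : Set (V h)} (h : 𝒱 ⊆ 𝒱') : c.Qi 𝒱 i ⊆ c.Qi 𝒱' i := convexHull_mono (Nb_mono h)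

theorem Nb_smul (hs : Star 𝒱) {a : ℝ} (ha : |a| ≤ 1) (hX : X ∈ c.Nb 𝒱 i) : a • X ∈ c.Nb 𝒱 i := by
  obtain ⟨Y, hY, l, hl, h, rfl⟩ := hX
  exact ⟨a • Y, hs.smul a ha Y hY, l, hl, h, (c.nb_smul l a Y).symm⟩

theorem zero_mem_Nb (hs : Star 𝒱) : (0 : V h) ∈ c.Nb 𝒱 i :=
  ⟨0, hs.zero, List.replicate i 0, by simp, fun Z hZ => by rw [List.eq_of_mem_replicate hZ]; exact hs.zero, by
    simpa using (c.nb_smul (List.replicate i 0) 0 0).symm⟩

theorem br_mem_Nb {Z : V h} (hZ : Z ∈ 𝒱) (hX : X ∈ c.Nb 𝒱 i) : c.br Z X ∈ c.Nb 𝒱 (i + 1) := by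
  obtain ⟨Y, hY, l, hl, h, rfl⟩ := hX
  exact ⟨Y, hY, Z :: l, by simpa using hl, by simpa using ⟨hZ, h⟩, rfl⟩

theorem convex_Qi : Convex ℝ (c.Qi 𝒱 i) := convex_convexHull _ _

theorem star_Qi (hs : Star 𝒱) : Star (c.Qi 𝒱 i) := by
  refine ⟨subset_convexHull _ _ (zero_mem_Nb hs), fun a ha v hv => ?_⟩
  have : c.Qi 𝒱 i ⊆ (a • LinearMap.id : V h →ₗ[ℝ] V h) ⁻¹' c.Qi 𝒱 i :=
    convexHull_min (fun X hX => subset_convexHull _ _ (Nb_smul hs ha hX)) (convex_Qi.linear_preimage _)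
  exact this hv

theorem Qi_le_F : c.Qi 𝒱 i ⊆ c.F i := by
  refine convexHull_min ?_ (c.F i).convex
  rintro _ ⟨Y, hY, l, hl, h, rfl⟩
  exact c.F_anti hl (c.nb_mem_F l Y)

theorem In.of_mem (hX : X ∈ c.Qi 𝒱 i) : c.In 𝒱 i 1 X := by rwa [In, one_smul]

theorem In.of_Nb (hX : X ∈ c.Nb 𝒱 i) : c.In 𝒱 i 1 X := In.of_mem (subset_convexHull _ _ hX)

theorem In.of_gen (hX : X ∈ 𝒱) : c.In 𝒱 1 1 X := In.of_Nb ⟨X, hX, [], le_rfl, by simp, rfl⟩

theorem In.zero (hs : Star 𝒱) : c.In 𝒱 i t 0 := ⟨0, (star_Qi hs).zero, smul_zero _⟩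

theorem In.mem_F (hX : c.In 𝒱 i t X) : X ∈ c.F i := by
  obtain ⟨q, hq, rfl⟩ := hX
  exact (c.F i).smul_mem _ (Qi_le_F hq)

theorem In.eq_zero (hX : c.In 𝒱 i t X) (hi : c.cl + 1 ≤ i) : X = 0 := by
  have := c.F_anti hi hX.mem_F
  rwa [c.F_cl] at this

theorem In.anti (hX : c.In 𝒱 j t X) (hij : i ≤ j) : c.In 𝒱 i t X := by
  obtain ⟨q, hq, rfl⟩ := hX
  exact ⟨q, convexHull_mono (Nb_anti hij) hq, rfl⟩

theorem In.one (hX : c.In 𝒱 j t X) : c.In 𝒱 1 t X := by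
  obtain ⟨q, hq, rfl⟩ := hX
  refine ⟨q, convexHull_mono ?_ hq, rfl⟩
  rintro _ ⟨Y, hY, l, hl, h, rfl⟩
  exact ⟨Y, hY, l, by omega, h, rfl⟩

theorem In.smul (hX : c.In 𝒱 i t X) (a : ℝ) : c.In 𝒱 i (a * t) (a • X) := by
  obtain ⟨q, hq, rfl⟩ := hX
  exact ⟨q, hq, (smul_smul a t q).symm⟩

theorem In.mono' (hs : Star 𝒱) (hX : c.In 𝒱 i t X) (hts : |t| ≤ s) : c.In 𝒱 i s X := by
  obtain ⟨q, hq, rfl⟩ := hX
  rcases (abs_nonneg t |>.trans hts).eq_or_lt with h0 | h0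
  · have : t = 0 := abs_nonpos_iff.1 (h0 ▸ hts)
    simp only [this, zero_smul]
    exact In.zero hs
  · refine ⟨(t / s) • q, (star_Qi hs).smul _ (by rw [abs_div, abs_of_pos h0]; exact div_le_one_of_le₀ hts h0.le) q hq, ?_⟩
    simp only [smul_smul]
    rw [mul_div_cancel₀ _ h0.ne']

theorem In.mono (hs : Star 𝒱) (hX : c.In 𝒱 i t X) (ht : 0 ≤ t) (hts : t ≤ s) : c.In 𝒱 i s X :=
  hX.mono' hs (by rwa [abs_of_nonneg ht])

theorem In.smul_abs (hs : Star 𝒱) (hX : c.In 𝒱 i t X) (ht : 0 ≤ t) (a : ℝ) : c.In 𝒱 i (|a| * t) (a • X) :=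
  (hX.smul a).mono' hs (by rw [abs_mul, abs_of_nonneg ht])

theorem In.neg (hs : Star 𝒱) (hX : c.In 𝒱 i t X) : c.In 𝒱 i t (-X) := by
  obtain ⟨q, hq, rfl⟩ := hX
  exact ⟨-q, (star_Qi hs).neg hq, smul_neg t q⟩

theorem In.add (hX : c.In 𝒱 i t X) (hY : c.In 𝒱 i s Y) (ht : 0 ≤ t) (hs : 0 ≤ s) : c.In 𝒱 i (t + s) (X + Y) := by
  rw [In, convex_Qi.add_smul ht hs]
  exact add_mem_add hX hY

theorem In.sub (hst : Star 𝒱) (hX : c.In 𝒱 i t X) (hY : c.In 𝒱 i s Y) (ht : 0 ≤ t) (hs : 0 ≤ s) :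
    c.In 𝒱 i (t + s) (X - Y) := by
  rw [sub_eq_add_neg]; exact hX.add (hY.neg hst) ht hs

theorem In.sum (hs : Star 𝒱) {ι : Type*} (T : Finset ι) {f : ι → V h} {r : ι → ℝ} (hr : ∀ x ∈ T, 0 ≤ r x)
    (hf : ∀ x ∈ T, c.In 𝒱 i (r x) (f x)) : c.In 𝒱 i (∑ x ∈ T, r x) (∑ x ∈ T, f x) := by
  classical
  induction T using Finset.induction_on with
  | empty => simpa using In.zero hs
  | insert x T hx ih =>
    rw [Finset.sum_insert hx, Finset.sum_insert hx]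
    exact (hf x (by simp)).add (ih (fun y hy => hr y (by simp [hy])) fun y hy => hf y (by simp [hy]))
      (hr x (by simp)) (Finset.sum_nonneg fun y hy => hr y (by simp [hy]))

/-- a linear map is controlled by its values on the generators -/
theorem In.map {f : V h →ₗ[ℝ] V h} {𝒱' : Set (V h)} {r : ℝ} (hf : ∀ Z ∈ c.Nb 𝒱 i, c.In 𝒱' j r (f Z))
    (hX : c.In 𝒱 i t X) : c.In 𝒱' j (t * r) (f X) := by
  obtain ⟨q, hq, rfl⟩ := hX
  have : c.Qi 𝒱 i ⊆ f ⁻¹' (r • c.Qi 𝒱' j) := convexHull_min hf ((convex_Qi.smul r).linear_preimage f)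
  rw [map_smul]
  exact In.smul (this hq) t

theorem In.br_gen {Z : V h} (hZ : Z ∈ 𝒱) (hX : c.In 𝒱 i t X) : c.In 𝒱 (i + 1) t (c.br Z X) := by
  simpa using In.map (f := c.br Z) (fun W hW => In.of_Nb (br_mem_Nb hZ hW)) hX

theorem In.br_nb (hs : Star 𝒱) {Z : V h} (hZ : Z ∈ 𝒱) (l : List (V h)) (hl : ∀ W ∈ l, W ∈ 𝒱) {j : ℕ} {s : ℝ}
    {Y : V h} (h0 : 0 ≤ s) (hY : c.In 𝒱 j s Y) : c.In 𝒱 (j + (l.length + 1)) (2 ^ l.length * s) (c.br (c.nb l Z) Y) := by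
  induction l generalizing j Y with
  | nil => simpa using hY.br_gen hZ
  | cons W l ih =>
    have hW : W ∈ 𝒱 := hl W (by simp)
    have hl' : ∀ W ∈ l, W ∈ 𝒱 := fun W' h' => hl W' (by simp [h'])
    rw [nb_cons, eq_sub_of_add_eq (c.jacobi W (c.nb l Z) Y).symm, List.length_cons, pow_succ, mul_two, add_mul]
    exact In.sub hs ((ih hl' hY).br_gen hW) ((ih hl' (hY.br_gen hW)).anti (by omega)) (by positivity) (by positivity)

/-- brackets -/
theorem In.br (hs : Star 𝒱) (hX : c.In 𝒱 i t X) (hY : c.In 𝒱 j s Y) (h0 : 0 ≤ s) :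
    c.In 𝒱 (i + j) (t * (2 ^ c.cl * s)) (c.br X Y) := by
  refine In.map (f := c.br.flip Y) ?_ hX
  rintro _ ⟨Z, hZ, l, hl, h, rfl⟩
  rw [LinearMap.flip_apply]
  by_cases hlen : c.cl ≤ l.length
  · rw [c.nb_eq_zero hlen, map_zero, LinearMap.zero_apply]
    exact In.zero hs
  · refine ((In.br_nb hs hZ l h h0 hY).anti (by omega)).mono hs (by positivity) ?_
    exact mul_le_mul_of_nonneg_right (pow_le_pow_right₀ one_le_two (by omega)) h0

theorem In.br_one (hs : Star 𝒱) {T : ℝ} (hX : c.In 𝒱 1 T X) (hY : c.In 𝒱 j s Y) (h0 : 0 ≤ s) :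
    c.In 𝒱 (j + 1) (2 ^ c.cl * T * s) (c.br X Y) := by
  have := hX.br hs hY h0
  rwa [add_comm, ← mul_assoc, mul_comm T] at this

theorem In.br_pow (hs : Star 𝒱) {T : ℝ} (hT : 0 ≤ T) (hX : c.In 𝒱 1 T X) (hY : c.In 𝒱 j s Y) (h0 : 0 ≤ s) (n : ℕ) :
    c.In 𝒱 j ((2 ^ c.cl * T) ^ n * s) (((c.br X : Module.End ℝ (V h)) ^ n) Y) := by
  induction n with
  | zero => simpa using hY
  | succ n ih =>
    rw [pow_succ', pow_succ', Module.End.mul_apply, mul_assoc]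
    exact (hX.br_one hs ih (by positivity)).anti (by omega)

variable (c) in
/-- the Baker-Campbell-Hausdorff remainder is controlled by the bracket -/
theorem exists_In_bch : ∃ (D : ℝ) (n : ℕ), 1 ≤ D ∧ ∀ (𝒱 : Set (V h)), Star 𝒱 → ∀ (m : ℕ) (T r : ℝ) (X Y : V h),
    1 ≤ T → 0 ≤ r → c.In 𝒱 1 T X → c.In 𝒱 1 T Y → c.In 𝒱 m r (c.br X Y) →
      c.In 𝒱 m (D * T ^ n * r) (c.bch X Y - X - Y) := by
  refine ⟨1 + ∑ w ∈ c.ws, |c.coef w| * (2 ^ c.cl) ^ w.length, c.ws.sup List.length,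
    le_add_of_nonneg_right (by positivity), fun 𝒱 hs m T r X Y hT hr hX hY hb => ?_⟩
  have hw : ∀ w : List Bool, c.In 𝒱 m ((2 ^ c.cl * T) ^ w.length * r) (nest c.br X Y w) := by
    intro w
    induction w with
    | nil => simpa [nest] using hb
    | cons e w ih =>
      rw [List.length_cons, pow_succ', mul_assoc]
      exact (In.br_one hs (X := if e then X else Y) (by split_ifs; exacts [hX, hY]) ih (by positivity)).anti (by omega)
  have e : c.bch X Y - X - Y = ∑ w ∈ c.ws, c.coef w • nest c.br X Y w := by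
    rw [bch, bchF]; abel
  rw [e]
  refine (In.sum hs c.ws (r := fun w => |c.coef w| * ((2 ^ c.cl * T) ^ w.length * r)) (fun w _ => by positivity)
    fun w _ => (hw w).smul_abs hs (by positivity) _).mono hs (by positivity) ?_
  rw [add_mul, add_mul, Finset.sum_mul, Finset.sum_mul]
  refine le_add_of_nonneg_of_le (by positivity) (Finset.sum_le_sum fun w hw => ?_)
  have := pow_le_pow_right₀ hT (Finset.le_sup (f := List.length) hw)
  rw [mul_pow]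
  calc _ = |c.coef w| * (2 ^ c.cl) ^ w.length * T ^ w.length * r := by ring
    _ ≤ _ := by gcongr

theorem Ad_exp_eq (X Y : V h) : c.Ad (c.exp X) Y = Y + c.br X Y +
    ∑ i ∈ Finset.range c.cl, ((i + 2).factorial : ℝ)⁻¹ • ((c.br X : Module.End ℝ (V h)) ^ i) (c.br X (c.br X Y)) := by
  rw [c.Ad_exp, ← ex_eq (c.br_pow_cl X) (Nat.le_add_right c.cl 2), ex, Finset.sum_range_succ', Finset.sum_range_succ']
  simp only [LinearMap.add_apply, LinearMap.sum_apply, LinearMap.smul_apply, pow_succ, Module.End.mul_apply,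
    Nat.factorial_zero, Nat.cast_one, inv_one, pow_zero, one_smul, zero_add, Nat.factorial_one, Module.End.one_apply]
  abel

variable (c) in
/-- second order expansion of the adjoint action -/
theorem exists_In_Ad : ∃ (D : ℝ) (n : ℕ), 1 ≤ D ∧ ∀ (𝒱 : Set (V h)), Star 𝒱 → ∀ (m : ℕ) (T r : ℝ) (X Y : V h),
    1 ≤ T → 0 ≤ r → c.In 𝒱 1 T X → c.In 𝒱 m r (c.br X (c.br X Y)) →
      c.In 𝒱 m (D * T ^ n * r) (c.Ad (c.exp X) Y - Y - c.br X Y) := by
  refine ⟨1 + c.cl * (2 ^ c.cl) ^ c.cl, c.cl, le_add_of_nonneg_right (by positivity),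
    fun 𝒱 hs m T r X Y hT hr hX hb => ?_⟩
  have h0 : 0 ≤ T := by linarith
  rw [Ad_exp_eq, add_assoc, add_sub_cancel_left, add_sub_cancel_left]
  refine (In.sum hs _ (r := fun i => (2 ^ c.cl * T) ^ c.cl * r) (fun i _ => by positivity) fun i hi => ?_).mono hs
    (by positivity) ?_
  · refine ((hX.br_pow hs h0 hb hr i).smul_abs hs (by positivity) _).mono hs (by positivity) ?_
    have h1 : |((i + 2).factorial : ℝ)⁻¹| ≤ 1 := by
      rw [abs_of_nonneg (by positivity)]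
      exact inv_le_one_of_one_le₀ (by exact_mod_cast Nat.factorial_pos _)
    have h2 : (2 ^ c.cl * T) ^ i ≤ (2 ^ c.cl * T) ^ c.cl :=
      pow_le_pow_right₀ (one_le_mul_of_one_le_of_one_le (one_le_pow₀ one_le_two) hT) (Finset.mem_range.1 hi).le
    calc _ ≤ 1 * ((2 ^ c.cl * T) ^ c.cl * r) := by gcongr
      _ = _ := one_mul _
  · rw [Finset.sum_const, Finset.card_range, nsmul_eq_mul, mul_pow, add_mul, add_mul]
    exact le_add_of_nonneg_of_le (by positivity) (le_of_eq (by ring))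

variable (c) in
/-- `bch` and `Ad` preserve the boxes up to polynomial factors -/
theorem exists_In_mul : ∃ (D : ℝ) (n : ℕ), 1 ≤ D ∧ ∀ (𝒱 : Set (V h)), Star 𝒱 → ∀ (m : ℕ) (T r : ℝ) (X Y : V h),
    1 ≤ T → 0 ≤ r → r ≤ T → c.In 𝒱 1 T X → c.In 𝒱 m r Y →
      c.In 𝒱 m (D * T ^ n * r) (c.bch X Y - X) ∧ c.In 𝒱 m (D * T ^ n * r) (c.bch Y X - X) ∧
      c.In 𝒱 (m + 1) (D * T ^ n * r) (c.bch X Y - X - Y) ∧ c.In 𝒱 (m + 1) (D * T ^ n * r) (c.bch Y X - Y - X) ∧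
      c.In 𝒱 (m + 1) (D * T ^ n * r) (c.Ad (c.exp X) Y - Y) ∧ c.In 𝒱 m (D * T ^ n * r) (c.Ad (c.exp X) Y) := by
  obtain ⟨D₁, n₁, hD₁, h₁⟩ := c.exists_In_bch
  obtain ⟨D₂, n₂, hD₂, h₂⟩ := c.exists_In_Ad
  set B : ℝ := 2 ^ c.cl with hB
  have hB1 : 1 ≤ B := one_le_pow₀ one_le_two
  refine ⟨1 + B + D₁ * B + D₂ * B * B, n₁ + n₂ + 2, le_add_of_le_of_nonneg (le_add_of_le_of_nonneg
    (le_add_of_nonneg_right (by positivity)) (by positivity)) (by positivity), fun 𝒱 hs m T r X Y hT hr hrT hX hY => ?_⟩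
  have h0 : 0 ≤ T := by linarith
  set P : ℝ := T ^ (n₁ + n₂ + 2) with hP
  have p0 : 1 ≤ P := one_le_pow₀ hT
  have p1 : T ≤ P := by simpa using pow_le_pow_right₀ hT (show 1 ≤ n₁ + n₂ + 2 by omega)
  have p2 : T ^ n₁ * T ≤ P := by rw [← pow_succ]; exact pow_le_pow_right₀ hT (by omega)
  have p3 : T ^ n₂ * T * T ≤ P := by rw [← pow_succ, ← pow_succ]; exact pow_le_pow_right₀ hT (by omega)
  have hY1 : c.In 𝒱 1 T Y := hY.one.mono hs hr hrT
  have hb : c.In 𝒱 (m + 1) (B * T * r) (c.br X Y) := hX.br_one hs hY hr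
  have a1 := h₁ 𝒱 hs (m + 1) T _ X Y hT (by positivity) hX hY1 hb
  have a2 := h₁ 𝒱 hs (m + 1) T (B * T * r) Y X hT (by positivity) hY1 hX (by rw [c.br_anti]; exact hb.neg hs)
  have a3 := h₂ 𝒱 hs (m + 1) T _ X Y hT (by positivity) hX ((hX.br_one hs hb (by positivity)).anti (by omega))
  have q1 : D₁ * T ^ n₁ * (B * T * r) ≤ D₁ * B * P * r := by
    calc _ = D₁ * B * (T ^ n₁ * T) * r := by ring
      _ ≤ _ := by gcongr
  have q2 : B * T * r ≤ B * P * r := by gcongr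
  have q3 : D₂ * T ^ n₂ * (B * T * (B * T * r)) ≤ D₂ * B * B * P * r := by
    calc _ = D₂ * B * B * (T ^ n₂ * T * T) * r := by ring
      _ ≤ _ := by gcongr
  have q4 : r ≤ P * r := le_mul_of_one_le_left hr p0
  have z1 : 0 ≤ P * r := by positivity
  have z2 : 0 ≤ B * P * r := by positivity
  have z3 : 0 ≤ D₁ * B * P * r := by positivity
  have z4 : 0 ≤ D₂ * B * B * P * r := by positivity
  have a4 := a3.add hb (by positivity) (by positivity)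
  rw [sub_add_cancel] at a4
  refine ⟨?_, ?_, a1.mono hs (by positivity) (by nlinarith), a2.mono hs (by positivity) (by nlinarith),
    a4.mono hs (by positivity) (by nlinarith), ?_⟩
  · have := (a1.anti (Nat.le_succ m)).add hY (by positivity) hr
    rw [sub_add_cancel] at this
    exact this.mono hs (by positivity) (by nlinarith)
  · have := (a2.anti (Nat.le_succ m)).add hY (by positivity) hr
    rw [show c.bch Y X - Y - X + Y = c.bch Y X - X by abel] at this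
    exact this.mono hs (by positivity) (by nlinarith)
  · have := (a4.anti (Nat.le_succ m)).add hY (by positivity) hr
    rw [sub_add_cancel] at this
    exact this.mono hs (by positivity) (by nlinarith)

end Core

end Crest.Agent.R182
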